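import Vale.Agent.N006.Dn
import Vale.Agent.P006.Main.Primary

/-!
P006, twisted first moment, part 3: the primary-prime form and the rational-prime form.
-/

namespace Vale.Agent.N006

open Finset Filter Topology Vale.Agent.P006
open scoped Classical Real

variable {r : O}

/-- the twisted normalised Gauss sum -/
noncomputable def tg (r ρ : O) : ℂ := (starRingEnd ℂ) (toC (sym r ρ)) * gt 1 ρ

theorem norm_tg_le {ρ : O} (h : Primary ρ) : ‖tg r ρ‖ ≤ 1 := by
  rw [tg, norm_mul, RCLike.norm_conj]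
  exact mul_le_one₀ (norm_sym_le _ _) (norm_nonneg _) (CRB.norm_gt_one_le h)

theorem bdd_tendsto {F : ℝ → ℂ} {K : ℝ} (h : ∀ X, 1 ≤ X → ‖F X‖ ≤ K * √X) :
    Tendsto (fun X => F X * ((Real.log X / X ^ ((5 : ℝ) / 6) : ℝ) : ℂ)) atTop (𝓝 0) := by
  rw [tendsto_zero_iff_norm_tendsto_zero]
  have h1 := sqrt_mul_log_div_tendsto.const_mul K
  rw [mul_zero] at h1
  refine squeeze_zero' (Eventually.of_forall fun _ => norm_nonneg _) ?_ h1
  filter_upwards [eventually_ge_atTop 1] with X hX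
  have h2 : 0 ≤ Real.log X / X ^ ((5 : ℝ) / 6) :=
    div_nonneg (Real.log_nonneg hX) (Real.rpow_nonneg (by linarith) _)
  rw [norm_mul, Complex.norm_real, Real.norm_of_nonneg h2, ← mul_assoc]
  exact mul_le_mul_of_nonneg_right (h X hX) h2

/-- primary-prime form -/
theorem tg_tendsto (hr : InP r) : Tendsto (fun X : ℝ => (∑ p ∈ PP X, tg r p) *
    ((Real.log X / X ^ ((5 : ℝ) / 6) : ℝ) : ℂ)) atTop
      (𝓝 ((starRingEnd ℂ) (gt 1 r) * ((N r : ℝ) ^ (-(1 / 6) : ℝ) * (6 / 5 * cStar) : ℝ))) := by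
  set u := (starRingEnd ℂ) (gt 1 r) with hu
  set m : ℝ := cStar * (N r : ℝ) ^ (-(1 / 6) : ℝ) with hm
  have hc := cStar_pos
  have hu1 : ‖u‖ = 1 := by rw [hu, RCLike.norm_conj, norm_gt_one hr]
  have hle : ∀ c : O, Primary c → (N c : ℝ) ^ (-(1 / 6) : ℝ) ≤ 1 := fun c h =>
    Real.rpow_le_one_of_one_le_of_nonpos h.one_le_N' (by norm_num)
  have h1 : Tendsto (fun X : ℝ => (∑ p ∈ PP X, tw r p) *
      ((Real.log X / X ^ ((5 : ℝ) / 6) : ℝ) : ℂ)) atTop (𝓝 0) := by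
    rw [tendsto_zero_iff_norm_tendsto_zero]
    refine (tw_tendsto hr.1).congr' ?_
    filter_upwards [eventually_gt_atTop 1] with X hX
    have hl : 0 < Real.log X := Real.log_pos hX
    have hX0 : 0 < X ^ ((5 : ℝ) / 6) := Real.rpow_pos_of_pos (by linarith) _
    rw [norm_mul, Complex.norm_real, Real.norm_of_nonneg (by positivity)]
    field_simp
  have h2 := (Complex.continuous_ofReal.tendsto _).comp (tendsto_model.const_mul m)
  have h3 := bdd_tendsto (K := 4 * (pdv r).card) (F := fun X => ∑ p ∈ PP X,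
      (tg r p - u * (tw r p + (m * (N p : ℝ) ^ (-(1 / 6) : ℝ) : ℝ)))) fun X hX => by
    rw [← sum_filter_add_sum_filter_not (PP X) (· ∣ r), sum_eq_zero (s := filter (¬ · ∣ r) _),
      add_zero]
    · refine (norm_sum_le _ _).trans ((sum_le_card_nsmul _ _ 4 fun p hp => ?_).trans ?_)
      · have hp' := (mem_PP.1 (mem_filter.1 hp).1).1.1
        have a1 := norm_tg_le (r := r) hp'
        have a2 := norm_tw_le (r := r) p
        have a3 : ‖((m * (N p : ℝ) ^ (-(1 / 6) : ℝ) : ℝ) : ℂ)‖ ≤ 1 := by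
          rw [Complex.norm_real, Real.norm_of_nonneg (by positivity)]
          exact mul_le_one₀ (mul_le_one₀ cStar_le_one (by positivity) (hle r hr.1))
            (by positivity) (hle p hp')
        refine (norm_sub_le _ _).trans ?_
        rw [norm_mul, hu1, one_mul]
        linarith [norm_add_le (tw r p) ((m * (N p : ℝ) ^ (-(1 / 6) : ℝ) : ℝ) : ℂ)]
      · have a1 : ((filter (· ∣ r) (PP X)).card : ℝ) ≤ (pdv r).card := by
          exact_mod_cast card_le_card fun p hp => (mem_pdv hr.ne_zero).2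
            ⟨(mem_PP.1 (mem_filter.1 hp).1).1.1, (mem_PP.1 (mem_filter.1 hp).1).2,
              (mem_filter.1 hp).2⟩
        have a2 := Real.one_le_sqrt.2 hX
        rw [nsmul_eq_mul]
        nlinarith [Nat.cast_nonneg (α := ℝ) (pdv r).card]
    · intro p hp
      rw [mem_filter, mem_PP] at hp
      have a1 := inP_of_prime hp.1.1.1 hp.1.2
      have a2 : u * gt 1 r = 1 := by
        rw [hu, Complex.conj_mul', norm_gt_one hr]; simp
      rw [tw, wf_mul hr a1 (hp.1.2.coprime_iff_not_dvd.2 hp.2).symm, tg, sub_add_cancel]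
      linear_combination -((starRingEnd ℂ) (toC (sym r p)) * gt 1 p) * a2
  have h4 := h3.add ((h1.add h2).const_mul u)
  rw [zero_add, zero_add, show m * (6 / 5) = (N r : ℝ) ^ (-(1 / 6) : ℝ) * (6 / 5 * cStar) by
    rw [hm]; ring] at h4
  refine h4.congr fun X => ?_
  simp only [Function.comp_apply, sum_sub_distrib, ← mul_sum, sum_add_distrib, Complex.ofReal_mul,
    Complex.ofReal_sum]
  ring

/-- the sum `∑_{x mod p} e(a x³ / p)` -/
noncomputable def kum (a p : ℕ) : ℂ :=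
  ∑ x ∈ range p, Complex.exp (2 * π * Complex.I * (a * (x : ℂ) ^ 3 / p))

theorem kum_eq {ρ : O} (hρ : Prime ρ) (hpr : Primary ρ) {p : ℕ} (hp : p.Prime) (hN : N ρ = p)
    {a : ℕ} (ha : IsCoprime (a : O) ρ) : kum a p = gs a ρ + (starRingEnd ℂ) (gs a ρ) := by
  have : Fact (Prime ρ) := ⟨hρ⟩
  have hl := hpr.not_lam_dvd
  have hp0 : (p : ℝ) ≠ 0 := by exact_mod_cast hp.ne_zero
  have hd : ρ ∣ ((p : ℤ) : O) := ⟨star ρ, by rw [← N_mul_star, hN]; simp⟩
  have hcopT : IsCoprime ((trO ρ : ℤ)) (p : ℤ) := by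
    refine ((Nat.prime_iff_prime_int.1 hp).coprime_iff_not_dvd.2 ?_).symm
    rintro ⟨c, hc⟩
    have h2 : ρ ∣ ((trO ρ : ℤ) : O) := hd.trans ⟨(c : O), by rw [hc]; push_cast; ring⟩
    rw [trO_eq] at h2
    exact not_dvd_star' hρ hpr hp hN ((dvd_add_right dvd_rfl).1 h2)
  obtain ⟨t, u, htu⟩ := hcopT
  have hsymt : sym (t : O) ρ = 1 := by
    have h1 : sym ((t * trO ρ : ℤ) : O) ρ = sym 1 ρ := by
      apply sym_periodic
      rw [show (t * trO ρ : ℤ) = 1 - u * p by linarith, Int.cast_sub, Int.cast_one,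
        sub_sub_cancel_left, dvd_neg, Int.cast_mul]
      exact hd.mul_left _
    rwa [sym_one_left, Int.cast_mul, sym_mul_left, sym_trace hρ hpr hp hN, mul_one] at h1
  have hcopt : IsCoprime (t : O) ρ := by
    rw [← sym_ne_zero, hsymt]; exact one_ne_zero
  have hterm : ∀ x : ℕ, Complex.exp (2 * π * Complex.I * (a * (x : ℂ) ^ 3 / p)) =
      psi ρ (rs ρ ((t : O) * a) * (rs ρ (x : O)) ^ 3) := by
    intro x
    rw [← map_pow, ← map_mul, psi_rs]
    have h1 : ((t : O) * a * (x : O) ^ 3) = ((t * a * (x : ℤ) ^ 3 : ℤ) : O) := by push_cast; ring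
    rw [h1, TrC_int_div _ hρ.ne_zero, hN]
    have h2 : (((t * a * (x : ℤ) ^ 3 : ℤ) : ℝ) * trO ρ / p) =
        a * (x : ℝ) ^ 3 / p + ((-(u * a * (x : ℤ) ^ 3) : ℤ) : ℝ) := by
      have h3 : (t : ℝ) * trO ρ + u * p = 1 := by exact_mod_cast htu
      push_cast
      field_simp
      linear_combination a * (x : ℝ) ^ 3 * h3
    rw [h2, e_add, e_int, mul_one, e]
    push_cast
    rfl
  rw [kum, sum_congr rfl fun x _ => hterm x,
    sum_range_rs hp hN (fun y => psi ρ (rs ρ ((t : O) * a) * y ^ 3)),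
    sum_cube_comp hl (fun z => psi ρ (rs ρ ((t : O) * a) * z))]
  simp only [add_mul, one_mul, sum_add_distrib]
  have h0 : ∑ z : Rs ρ, psi ρ (rs ρ ((t : O) * a) * z) = 0 := by
    rw [sum_psi_mul, if_neg]
    intro h
    exact hρ.coprime_iff_not_dvd.1 (hcopt.mul_left ha).symm
      ((CRB.isCoprime_lam_of_prime hl).dvd_of_dvd_mul_left h)
  have h1 : ∑ z : Rs ρ, chi ρ z * psi ρ (rs ρ ((t : O) * a) * z) = gs a ρ := by
    rw [← CRB.gs_eq, gs_twist _ hρ.ne_zero hcopt, hsymt, map_one, map_one, one_mul]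
  have h2 : ∑ z : Rs ρ, chi ρ z ^ 2 * psi ρ (rs ρ ((t : O) * a) * z) =
      (starRingEnd ℂ) (gs a ρ) := by
    rw [← h1, map_sum, ← Equiv.sum_comp (Equiv.neg (Rs ρ))]
    refine sum_congr rfl fun z _ => ?_
    have h3 : chi ρ (-z) = chi ρ z := by
      obtain ⟨z, rfl⟩ := rs_surj ρ z
      rw [← map_neg, chi_rs, chi_rs, sym_neg_left]
    rw [Equiv.neg_apply, h3, map_mul (starRingEnd ℂ), CRB.conj_chi, conj_psi, mul_neg]
  rw [h0, h1, h2, zero_add]

theorem fiber_le (a : ℕ) {n p : ℕ} (hp : p.Prime) (h3 : p % 3 = 1) (hpn : p ≤ n) :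
    ‖∑ ρ ∈ (primaryPrimes n).filter (fun ρ => N ρ = p), tg a ρ -
      2 * (kum a p / ((2 * √(p : ℝ) : ℝ) : ℂ))‖ ≤ if p ∣ a then (p : ℝ) + 2 else 0 := by
  obtain ⟨ρ, hρ, hpr, hN⟩ := exists_split hp h3
  have hset : (primaryPrimes n).filter (fun ρ => N ρ = p) = {ρ, star ρ} := by
    ext σ
    simp only [mem_filter, mem_primaryPrimes, mem_insert, mem_singleton]
    constructor
    · rintro ⟨⟨h1, h2, _⟩, h4⟩
      exact eq_or_eq_star h1 hpr h2 hρ (by rw [hN, h4])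
    · rintro (rfl | rfl)
      · exact ⟨⟨hρ, hpr, by omega⟩, hN⟩
      · exact ⟨⟨prime_star hρ, hpr.star, by rw [N_star]; omega⟩, by rw [N_star]; exact hN⟩
  have hs : (1 : ℝ) ≤ √(p : ℝ) := Real.one_le_sqrt.2 (by exact_mod_cast hp.one_le)
  rw [hset, sum_pair (star_ne_self hp hN).symm]
  split_ifs with h
  · have a1 : ‖kum a p‖ ≤ p := by
      refine (norm_sum_le _ _).trans ((sum_le_card_nsmul _ _ 1 fun x _ => ?_).trans (by simp))
      rw [show 2 * π * Complex.I * (a * (x : ℂ) ^ 3 / p) =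
        ((2 * π * (a * (x : ℝ) ^ 3 / p) : ℝ) : ℂ) * Complex.I by push_cast; ring,
        Complex.norm_exp_ofReal_mul_I]
    have a2 : ‖2 * (kum a p / ((2 * √(p : ℝ) : ℝ) : ℂ))‖ ≤ p := by
      rw [norm_mul, norm_div, Complex.norm_real, Real.norm_of_nonneg (by positivity),
        Complex.norm_ofNat, mul_div_assoc', div_le_iff₀ (by positivity)]
      nlinarith [Nat.cast_nonneg (α := ℝ) p]
    refine (norm_sub_le _ _).trans ?_
    linarith [norm_add_le (tg a ρ) (tg a (star ρ)), norm_tg_le (r := a) hpr,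
      norm_tg_le (r := a) hpr.star]
  · have ha : IsCoprime (a : O) ρ := by
      refine (hρ.coprime_iff_not_dvd.2 fun h1 => h ?_).symm
      have h2 := N_dvd_N h1
      rw [hN, N_natCast] at h2
      exact hp.dvd_of_dvd_pow h2
    have a1 : tg a ρ = gt a ρ := (gt_twist_one hρ.ne_zero ha).symm
    have a2 : tg a (star ρ) = (starRingEnd ℂ) (gt a ρ) := by
      rw [← a1, tg, tg, map_mul, ← CRB.gt_star, star_one, conj_sym' (a : O) ρ, star_natCast]
    have a3 : ((√(p : ℝ) : ℝ) : ℂ) ≠ 0 := by exact_mod_cast (by linarith : √(p : ℝ) ≠ 0)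
    rw [a1, a2, kum_eq hρ hpr hp hN ha, gt, map_div₀, Complex.conj_ofReal, hN, norm_le_zero_iff]
    push_cast
    field_simp
    ring

theorem card_inert (n : ℕ) :
    ((primaryPrimes n).filter (fun ρ => ¬ (N ρ).Prime)).card ≤ Nat.sqrt n := by
  rw [← card_range (Nat.sqrt n)]
  apply card_le_card_of_injOn (fun ρ => Nat.sqrt (N ρ) - 1)
  · intro ρ hρ
    simp only [coe_filter, Set.mem_ofPred_eq, mem_primaryPrimes] at hρ
    obtain ⟨q, hq, hN, _⟩ := (N_prime_cases hρ.1.1).resolve_left hρ.2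
    have h4 : q ≤ Nat.sqrt n := by
      rw [Nat.le_sqrt, ← sq, ← hN]; exact hρ.1.2.2
    have h5 := hq.pos
    simp only [coe_range, Set.mem_Iio]
    rw [hN, Nat.sqrt_eq' q]
    omega
  · intro ρ hρ σ hσ h
    simp only [coe_filter, Set.mem_ofPred_eq, mem_primaryPrimes] at hρ hσ
    obtain ⟨q, hq, hN, ha⟩ := (N_prime_cases hρ.1.1).resolve_left hρ.2
    obtain ⟨s, hs, hN', ha'⟩ := (N_prime_cases hσ.1.1).resolve_left hσ.2
    simp only at h
    rw [hN, hN', Nat.sqrt_eq', Nat.sqrt_eq'] at h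
    have h5 := hq.pos
    have h6 := hs.pos
    obtain rfl : q = s := by omega
    exact hρ.1.2.1.eq_of_associated hσ.1.2.1 (ha.trans ha'.symm)

theorem norm_sub_kum_le {a : ℕ} (ha : a ≠ 0) (n : ℕ) :
    ‖∑ ρ ∈ primaryPrimes n, tg a ρ - 2 * ∑ p ∈ (Icc 1 n).filter (fun p => p.Prime ∧ p % 3 = 1),
      kum a p / ((2 * √(p : ℝ) : ℝ) : ℂ)‖ ≤ a * (a + 2) + √n := by
  have hmaps : ∀ ρ ∈ (primaryPrimes n).filter (fun ρ => (N ρ).Prime),
      N ρ ∈ (Icc 1 n).filter (fun p => p.Prime ∧ p % 3 = 1) := by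
    intro ρ hρ
    rw [mem_filter, mem_primaryPrimes] at hρ
    rw [mem_filter, mem_Icc]
    exact ⟨⟨hρ.2.one_le, hρ.1.2.2⟩, hρ.2, hρ.1.2.1.N_mod⟩
  rw [← sum_filter_add_sum_filter_not (primaryPrimes n) (fun ρ => (N ρ).Prime), add_sub_right_comm,
    ← sum_fiberwise_of_maps_to hmaps, mul_sum, ← sum_sub_distrib]
  refine (norm_add_le _ _).trans (add_le_add ?_ ?_)
  · refine (norm_sum_le_of_le _ (n := fun p => if p ∣ a then (p : ℝ) + 2 else 0)
      fun p hp => ?_).trans ?_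
    · rw [mem_filter, mem_Icc] at hp
      rw [filter_filter, filter_congr (q := fun ρ => N ρ = p) fun ρ _ =>
        ⟨fun h => h.2, fun h => ⟨h ▸ hp.2.1, h⟩⟩]
      exact fiber_le a hp.2.1 hp.2.2 hp.1.2
    · rw [← sum_filter]
      refine (sum_le_card_nsmul _ _ ((a : ℝ) + 2) fun p hp => ?_).trans ?_
      · have : (p : ℝ) ≤ a := by
          exact_mod_cast Nat.le_of_dvd (Nat.pos_of_ne_zero ha) (mem_filter.1 hp).2
        linarith
      · rw [nsmul_eq_mul]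
        gcongr
        refine (card_le_card (t := Icc 1 a) fun p hp => ?_).trans (by simp)
        simp only [mem_filter, mem_Icc] at hp ⊢
        exact ⟨hp.1.1.1, Nat.le_of_dvd (Nat.pos_of_ne_zero ha) hp.2⟩
  · refine (norm_sum_le _ _).trans ((sum_le_card_nsmul _ _ 1 fun ρ hρ =>
      norm_tg_le (mem_primaryPrimes.1 (mem_filter.1 hρ).1).2.1).trans ?_)
    rw [nsmul_eq_mul, mul_one]
    exact le_trans (by exact_mod_cast card_inert n) Real.nat_sqrt_le_real_sqrt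

theorem exists_prime_int {p : ℕ} (hp : p.Prime) (h3 : ¬ 3 ∣ p) :
    ∃ n : ℤ, n.natAbs = p ∧ InP (n : O) ∧ gt 1 (n : O) = 1 := by
  by_cases h : p % 3 = 1
  · obtain ⟨ρ, hρ, hpr, hN⟩ := exists_split hp h
    have h1 := not_dvd_star' hρ hpr hp hN
    have h2 := hρ.coprime_iff_not_dvd.2 h1
    have a1 := inP_of_prime hpr hρ
    have a2 := inP_of_prime hpr.star (prime_star hρ)
    have e : ((p : ℤ) : O) = ρ * star ρ := by rw [← N_mul_star, hN]; simp
    refine ⟨p, rfl, e ▸ a1.mul a2 h2, ?_⟩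
    have a3 := CRB.gt_star 1 ρ
    rw [star_one] at a3
    rw [e, gt_one_mul a1 a2 h2, recip_star hρ hpr h1, map_one, map_one, one_mul, a3,
      Complex.mul_conj', norm_gt_one a1]
    simp
  · have h1 : Primary ((-p : ℤ) : O) := primary_intCast.2 (by omega)
    have hN : N ((-p : ℤ) : O) = p ^ 2 := by rw [N_intCast]; simp
    obtain ⟨ρ, hpr, hρ, hd⟩ := exists_primary_prime_dvd h1 dvd_rfl (by
      rw [isUnit_iff_N, hN]
      exact (Nat.one_lt_pow two_ne_zero hp.one_lt).ne')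
    have h2 := N_dvd_N hd
    rw [hN] at h2
    rcases N_prime_cases hρ with h4 | ⟨q, hq, h4, h5⟩
    · have h5 := (Nat.prime_dvd_prime_iff_eq h4 hp).1 (h4.dvd_of_dvd_pow h2)
      exact absurd (h5 ▸ hpr.N_mod) h
    rw [h4, Nat.pow_dvd_pow_iff two_ne_zero, Nat.prime_dvd_prime_iff_eq hq hp] at h2
    subst h2
    have h6 : Prime ((-q : ℤ) : O) := by
      rw [Int.cast_neg, Int.cast_natCast]
      exact (h5.prime hρ).neg
    refine ⟨-q, by simp, inP_of_prime h1 h6, ?_⟩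
    have h7 := gt_one_prime_cube h6 h1
    have h8 := CRB.gt_star 1 ((-q : ℤ) : O)
    rw [star_one, star_intCast, eq_comm, Complex.conj_eq_iff_re] at h8
    have h9 : (q : ℂ) ≠ 0 := by exact_mod_cast hq.ne_zero
    rw [toC_intCast, ← h8, Int.cast_neg (R := ℂ), neg_neg, norm_neg, Int.cast_natCast (R := ℂ),
      Complex.norm_natCast, Complex.ofReal_natCast, div_self h9] at h7
    rw [← h8]
    have h10 : (gt 1 ((-q : ℤ) : O)).re ^ 3 = 1 := by exact_mod_cast h7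
    exact_mod_cast (Odd.pow_injective (by decide : Odd 3) (h10.trans (one_pow 3).symm) :)

theorem exists_int (a : ℕ) : Squarefree a → ¬ 3 ∣ a →
    ∃ n : ℤ, n.natAbs = a ∧ InP (n : O) ∧ gt 1 (n : O) = 1 := by
  induction a using induction_on_primes with
  | zero => exact fun h => absurd h not_squarefree_zero
  | one => exact fun _ _ => ⟨1, rfl, by simpa using inP_one, by simp⟩
  | prime_mul p b hp ih =>
    intro h1 h2
    rw [Nat.squarefree_mul_iff] at h1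
    obtain ⟨n, a1, a2, a3⟩ := exists_prime_int hp fun h => h2 (h.mul_right _)
    obtain ⟨m, b1, b2, b3⟩ := ih h1.2.2 fun h => h2 (h.mul_left _)
    have h3 : IsCoprime n m := by
      rw [Int.isCoprime_iff_gcd_eq_one, Int.gcd, a1, b1]
      exact h1.1
    have h4 : IsCoprime (n : O) (m : O) := h3.map (Int.castRingHom O)
    refine ⟨n * m, by rw [Int.natAbs_mul, a1, b1], by rw [Int.cast_mul]; exact a2.mul b2 h4, ?_⟩
    rw [Int.cast_mul, gt_one_mul a2 b2 h4, sym_int h3, a3, b3]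
    simp

/-- **rational-prime form** -/
theorem rational {a : ℕ} (h1 : Squarefree a) (h2 : ¬ 3 ∣ a) : Tendsto (fun X : ℝ =>
    (∑ p ∈ (Icc 1 ⌊X⌋₊).filter (fun p : ℕ => p.Prime ∧ p % 3 = 1),
      kum a p / ((2 * √(p : ℝ) : ℝ) : ℂ)) / ((X ^ (5 / 6 : ℝ) / Real.log X : ℝ) : ℂ)) atTop
    (𝓝 (((a : ℝ) ^ (-(1 / 3) : ℝ) * ((2 * π) ^ (2 / 3 : ℝ) / (5 * Real.Gamma (2 / 3))) : ℝ) : ℂ)) := by
  obtain ⟨n, a1, a2, a3⟩ := exists_int a h1 h2
  have h3 := tg_tendsto a2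
  have e1 : tg (n : O) = tg (a : O) := by
    funext ρ
    rcases Int.natAbs_eq n with h | h <;> rw [h, a1]
    · simp
    · rw [tg, tg, Int.cast_neg, sym_neg_left, Int.cast_natCast]
  have h4 := bdd_tendsto (K := a * (a + 2) + 1) (F := fun X => ∑ ρ ∈ PP X, tg a ρ -
      2 * ∑ p ∈ (Icc 1 ⌊X⌋₊).filter (fun p => p.Prime ∧ p % 3 = 1),
        kum a p / ((2 * √(p : ℝ) : ℝ) : ℂ)) fun X hX => by
    rw [← primaryPrimes_eq_PP]
    refine (norm_sub_kum_le h1.ne_zero _).trans ?_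
    have b1 := Real.sqrt_le_sqrt (Nat.floor_le (show 0 ≤ X by linarith))
    have b2 := Real.one_le_sqrt.2 hX
    have b3 : (0 : ℝ) ≤ a * (a + 2) := by positivity
    nlinarith
  rw [e1, a3, map_one, one_mul, N_intCast, a1] at h3
  have h5 := (h3.sub h4).div_const 2
  have hG := Real.Gamma_pos_of_pos (show (0 : ℝ) < 2 / 3 by norm_num)
  have e2 : ((a ^ 2 : ℕ) : ℝ) ^ (-(1 / 6) : ℝ) = (a : ℝ) ^ (-(1 / 3) : ℝ) := by
    rw [Nat.cast_pow, ← Real.rpow_natCast, ← Real.rpow_mul (Nat.cast_nonneg _)]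
    norm_num
  rw [e2, sub_zero, ← Complex.ofReal_ofNat, ← Complex.ofReal_div] at h5
  refine (h5.congr fun X => ?_).trans_eq (congrArg _ (congrArg _ ?_))
  · rw [div_eq_mul_inv _ (((X ^ (5 / 6 : ℝ) / Real.log X : ℝ)) : ℂ), ← Complex.ofReal_inv, inv_div,
      Complex.ofReal_ofNat]
    ring
  · rw [cStar]
    field_simp
    ring

open Std in
/-- **primary-prime form** -/
theorem primary (r : Eis) (h1 : (3 : Eis) ∣ r - 1) (h2 : Squarefree r) : ∃ u : ℂ, ‖u‖ = 1 ∧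
    Tendsto (fun X : ℝ => (∑ᶠ ϖ ∈ primaryPrimesLE X, (starRingEnd ℂ) (cubicChar ϖ r) * G ϖ) /
      ((X ^ (5 / 6 : ℝ) / Real.log X : ℝ) : ℂ)) atTop (𝓝 (u * ((nrm r : ℝ) ^ (-(1 / 6) : ℝ) *
        (6 / 5 * ((2 * π) ^ (2 / 3 : ℝ) / (3 * Real.Gamma (2 / 3)))) : ℝ))) := by
  refine ⟨(starRingEnd ℂ) (gt 1 r), by rw [RCLike.norm_conj, norm_gt_one ⟨h1, h2⟩], ?_⟩
  rw [nrm_eq]
  refine (tg_tendsto ⟨h1, h2⟩).congr fun X => ?_
  have hs : primaryPrimesLE X = ((PP X : Finset Eis) : Set Eis) := by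
    ext z
    rw [mem_coe, mem_PP, primaryPrimesLE, Set.mem_ofPred_eq, nrm_eq]
    exact ⟨fun h => ⟨⟨h.2.1, h.2.2⟩, h.1⟩, fun h => ⟨h.2, h.1.1, h.1.2⟩⟩
  rw [hs, finsum_mem_coe_finset, div_eq_mul_inv _ (((X ^ (5 / 6 : ℝ) / Real.log X : ℝ)) : ℂ),
    ← Complex.ofReal_inv, inv_div]
  congr 1
  refine sum_congr rfl fun ϖ hϖ => ?_
  rw [tg, cubicChar_eq (mem_PP.1 hϖ).2, G_eq (mem_PP.1 hϖ).2]

end Vale.Agent.N006
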