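import Vale.Agent.N006.Tw

/-!
P006, twisted first moment, part 2: the dispersion estimate and the centre for `c ↦ wf (r c)`.
-/

namespace Vale.Agent.N006

open Finset Vale.Agent.P006 Vale.Agent.P006.VR Vale.Agent.P006.DN Vale.Agent.P006.DISP
open Vale.Agent.P006.TIIC
open scoped Classical

variable {r : O}

/-- the dispersion estimate for `wf`, with no upper bound on `B` -/
theorem dn0 {δ : ℝ} (hδ : 0 < δ) (hδ1 : δ ≤ 1) (T : ℝ) :
    ∃ C₀ : ℝ, 0 ≤ C₀ ∧ ∀ W : O, InP W → ∀ A' C' : ℕ, ∃ C : ℝ, 0 ≤ C ∧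
    ∀ X A B : ℝ, 3 ≤ X → 1 ≤ A → (T ≤ X → X ^ δ ≤ A) → A ^ (1 + δ) ≤ B → A * B ≤ X →
    ∀ ξ u : ℝ, (Real.log X ^ C')⁻¹ ≤ ξ → ξ ≤ 1 → 1 ≤ u → u ≤ 2 →
    ∀ l : ℕ, ∀ G : ℝ, 1 ≤ G → ∀ α : O → ℂ, ClassG α X G →
    (∀ a, α a ≠ 0 → IsCoprime a W ∧ A < (N a : ℝ) ∧ (N a : ℝ) ≤ 2 * A) →
    FamS wf α W A (u * B) ((u + ξ) * B) l ≤
      C₀ * dens W * ξ * B * ∑ a ∈ SPB (2 * A), ‖α a‖ ^ 2
      + C₀ * ξ ^ (-(1 / 2) : ℝ) * B * EMf α (2 * A) l
      + C * (G ^ 2 * (A ^ (5 / 3 : ℝ) * B ^ (2 / 3 : ℝ)) / Real.log X ^ A') := by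
  obtain ⟨C0, hC0, hfam⟩ := FamS_le dispStmt
  refine ⟨C0, hC0, fun W hW A' C' => ?_⟩
  obtain ⟨C, c, hC, hc, hfam⟩ := hfam W hW (δ / 12) (by positivity)
  obtain ⟨X0, Cn, hX0, hCn, hnc⟩ := NCf_blocks hδ hδ1 (A' + C' * ⌈c⌉₊)
  obtain ⟨K1, hK10, hK1⟩ : ∃ K1 : ℝ, 0 ≤ K1 ∧ ∀ X : ℝ, 1 ≤ X →
      Real.log X ^ (A' + C' * ⌈c⌉₊) ≤ K1 * X ^ (δ / 12) :=
    ⟨_, by positivity, fun X hX => log_pow_le (c := δ / 12) (by positivity) _ hX⟩
  have hlX0 : 0 ≤ Real.log (max X0 T) := Real.log_nonneg (le_max_of_le_left (by linarith))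
  refine ⟨2 * C * K1 + C * Cn + 3072 * max X0 T ^ 2 * Real.log (max X0 T) ^ A', by positivity, ?_⟩
  intro X A B hX hA1 hA hB hAB ξ u hξ hξ1 hu hu2 l G hG α hα hs
  have hX00 : 0 < X := by linarith
  have hL1 := one_le_log hX
  have hL0 : 0 < Real.log X := by linarith
  have hA0 : 0 < A := by linarith
  have hAB' : A ≤ B := by
    calc A = A ^ (1 : ℝ) := (Real.rpow_one A).symm
      _ ≤ A ^ (1 + δ) := Real.rpow_le_rpow_of_exponent_le hA1 (by linarith)
      _ ≤ B := hB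
  have hB1 : 1 ≤ B := hA1.trans hAB'
  have hB0 : 0 < B := by linarith
  have hξ0 : 0 < ξ := lt_of_lt_of_le (by positivity) hξ
  have hadm : Adm W A α := ⟨fun a ha => ⟨⟨(hα.supp a ha).1, (hα.supp a ha).2.1⟩, hs a ha⟩⟩
  have hdens := dens_nonneg W
  have hEM := EMf_nonneg α (2 * A) l
  have hT1 : 0 ≤ C0 * dens W * ξ * B * ∑ a ∈ SPB (2 * A), ‖α a‖ ^ 2 := by positivity
  have hT2 : 0 ≤ C0 * ξ ^ (-(1 / 2) : ℝ) * B * EMf α (2 * A) l := by positivity
  set Q := G ^ 2 * (A ^ (5 / 3 : ℝ) * B ^ (2 / 3 : ℝ)) / Real.log X ^ A' with hQ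
  have hQ0 : 0 ≤ Q := by positivity
  have h31 : 0 ≤ 2 * C * K1 * Q := by positivity
  have h32 : 0 ≤ C * Cn * Q := by positivity
  have h33 : 0 ≤ 3072 * max X0 T ^ 2 * Real.log (max X0 T) ^ A' * Q := by positivity
  rw [add_mul _ _ Q, add_mul _ _ Q]
  rcases le_or_gt (max X0 T) X with hXX | hXX
  · have hA' := hA ((le_max_right _ _).trans hXX)
    have h1 := hfam ξ u A B hξ0 hξ1 hu hu2 hA1 hB1 α G (by linarith) hα.bound hadm l
    have h2 := hnc X A B G α ((le_max_left _ _).trans hXX) hA' hB hAB hG hα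
      (fun a ha => (hs a ha).2) l (range (⌊2 * A⌋₊ + 1))
    have hxi := xi_pow_le hL1 hc hξ
    have h4 := R_term_le (G := G) hX00 hL1 hA1 hδ hA' hAB' hAB hC hxi (hK1 X (by linarith))
    have h5 := N_term_le hL1 hC hxi (sum_nonneg fun s _ => NCf_nonneg hA0 hB0) h2
    rw [← hQ] at h4 h5
    linarith
  · have h1 := small_le (l := l) (W := W) (A' := A') hX hXX hA1 hB1 hAB (by linarith : 0 ≤ G)
      hα.bound hξ0 hξ1 hu hu2
    rw [← hQ] at h1
    linarith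

theorem exists_part (r : O) : ∀ W : O, Primary W → Squarefree W →
    ∃ V : O, InP V ∧ V ∣ W ∧ IsCoprime r V ∧ ∀ p ∈ pdv W, p ∣ r * V := by
  refine Primary.induction (fun _ => ⟨1, inP_one, dvd_rfl, isCoprime_one_right, ?_⟩) ?_
  · simp [pdv_one]
  · intro π b hπ hp hb ih hs
    obtain ⟨V, h1, h2, h3, h4⟩ := ih (hs.squarefree_of_dvd (dvd_mul_left _ _))
    rw [pdv_mul hp hb, pdv_prime hπ hp]
    by_cases h : π ∣ r
    · refine ⟨V, h1, h2.mul_left _, h3, fun p hp' => ?_⟩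
      rcases mem_union.1 hp' with h5 | h5
      · exact mem_singleton.1 h5 ▸ h.mul_right _
      · exact h4 p h5
    · refine ⟨π * V, ⟨hp.mul h1.1, hs.squarefree_of_dvd (mul_dvd_mul_left _ h2)⟩,
        mul_dvd_mul_left _ h2, (hπ.coprime_iff_not_dvd.2 h).symm.mul_right h3, fun p hp' => ?_⟩
      rcases mem_union.1 hp' with h5 | h5
      · exact mem_singleton.1 h5 ▸ (dvd_mul_right _ _).mul_left _
      · exact (h4 p h5).trans (mul_dvd_mul_left _ (dvd_mul_left _ _))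

/-- the dispersion estimate for `tw r` -/
theorem dn_tw (hr : Primary r) {δ : ℝ} (hδ : 0 < δ) (hδ1 : δ ≤ 1) : DNHyp (tw r) δ := by
  have hR := hr.one_le_N'
  have hd := SV.dens_pos hr
  have hd1 := dens_le_one r
  obtain ⟨C₀, hC₀, H⟩ := dn0 (δ := δ / 2) (by linarith) (by linarith)
    (N r * (N r : ℝ) ^ (1 / (δ / 2)))
  refine ⟨C₀ * N r / dens r, by positivity, fun W hW hWs A' C' => ?_⟩
  obtain ⟨V, hV, hVW, hrV, hp⟩ := exists_part r W hW hWs
  obtain ⟨C, hC, H⟩ := H V hV A' C'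
  refine ⟨C * N r, by positivity, ?_⟩
  intro X A B hX hA hB _ hAB ξ u hξ hξ1 hu hu2 l G hG α hα hs
  have hL := one_le_log hX
  have hA1 : 1 ≤ A := (Real.one_le_rpow (by linarith) hδ.le).trans hA
  have hB1 : 1 ≤ B := (Real.one_le_rpow hA1 (by linarith)).trans hB
  have h2 : X ≤ N r * X := by nlinarith
  have hL2 : Real.log X ≤ Real.log (N r * X) := Real.log_le_log (by linarith) h2
  have hξ0 : 0 < ξ := lt_of_lt_of_le (by positivity) hξ
  have key := H (N r * X) A (N r * B) (by linarith) hA1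
    (fun h => (scale_le hR (by linarith) (le_rpow_of hR (by linarith)
      (le_of_mul_le_mul_left h (by linarith))) (by linarith) (by linarith)).trans hA)
    (((Real.rpow_le_rpow_of_exponent_le hA1 (by linarith)).trans hB).trans (by nlinarith))
    (by rw [mul_left_comm]; gcongr) ξ u (le_trans (by gcongr) hξ) hξ1 hu hu2 l G hG α
    (hα.mono h2 le_rfl) fun a ha => ⟨(hs a ha).1.of_isCoprime_of_dvd_right hVW, (hs a ha).2⟩
  have h3 : FamS (tw r) α W A (u * B) ((u + ξ) * B) l ≤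
      FamS wf α V A (u * (N r * B)) ((u + ξ) * (N r * B)) l := by
    refine sum_le_sum fun s _ => sum_le_mul hr.ne_zero (fun b hb h => ?_) (fun b _ => le_of_eq ?_)
      fun _ => by positivity
    · rw [mem_filter, mem_SPB] at hb ⊢
      rw [N_mul, Nat.cast_mul, mul_left_comm u, mul_left_comm (u + ξ)]
      refine ⟨⟨⟨hr.mul hb.1.1.1, by gcongr; exact hb.1.1.2⟩, ?_⟩,
        hrV.mul_left (hb.2.1.of_isCoprime_of_dvd_right hVW), by gcongr; exact hb.2.2⟩
      by_contra h4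
      refine h ?_
      rw [sum_eq_zero fun a _ => ?_, norm_zero, zero_pow two_ne_zero]
      rw [tw, wf_of_not_squarefree _ fun h5 => h4 (h5.squarefree_of_dvd ⟨a, by ring⟩), mul_zero]
    · simp only [tw, mul_left_comm r]
  have h4 : dens V ≤ dens W / dens r := by
    rw [le_div_iff₀ hd, ← dens_mul hV.1 hr hrV]
    refine prod_le_prod_of_subset_of_le_one (fun p hp' => ?_) (fun p hp' => ?_) fun p _ _ => ?_
    · rw [mem_pdv (hV.1.mul hr).ne_zero, mul_comm]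
      have := (mem_pdv hW.ne_zero).1 hp'
      exact ⟨this.1, this.2.1, hp p hp'⟩
    · have := ((mem_pdv (hV.1.mul hr).ne_zero).1 hp').1.one_le_N'
      rw [sub_nonneg, div_le_one (by linarith)]
      exact this
    · exact sub_le_self _ (by positivity)
  have h5 := mul_rpow_le (s := 2 / 3) hR (show 0 ≤ B by linarith) (by norm_num)
  have hEM := EMf_nonneg α (2 * A) l
  refine h3.trans (key.trans (add_le_add (add_le_add ?_ ?_) ?_))
  · calc _ ≤ C₀ * (dens W / dens r) * ξ * (N r * B) * ∑ a ∈ SPB (2 * A), ‖α a‖ ^ 2 := by gcongr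
      _ = _ := by ring
  · calc _ = C₀ * N r / 1 * ξ ^ (-(1 / 2) : ℝ) * B * EMf α (2 * A) l := by ring
      _ ≤ _ := by gcongr
  · calc _ ≤ C * (G ^ 2 * (A ^ (5 / 3 : ℝ) * (N r * B ^ (2 / 3 : ℝ))) / Real.log X ^ A') := by
          gcongr
      _ = _ := by ring

theorem classG_smul {α : O → ℂ} {X G ρ : ℝ} (h : ClassG α X G) (hρ : 0 ≤ ρ) :
    ClassG (fun a => (ρ : ℂ) * α a) X (ρ * G) := by
  refine ⟨fun a ha => h.supp a (right_ne_zero_of_mul ha), fun a => ?_, fun m hm => ?_⟩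
  · rw [norm_mul, Complex.norm_real, Real.norm_of_nonneg hρ]
    exact mul_le_mul_of_nonneg_left (h.bound a) hρ
  · obtain ⟨v, h1, h2⟩ := h.str m hm
    refine ⟨fun n => ρ * v n, fun n => ?_, fun p a b c => by rw [h2 p a b c]⟩
    simp only [← mul_sub, norm_mul, Complex.norm_real, Real.norm_of_nonneg hρ, ← mul_sum,
      ← mul_add]
    exact mul_le_mul_of_nonneg_left (h1 n) hρ

/-- coefficients of the scale `Y / R`, seen at the scale `Y` -/
noncomputable def resc (f : ℝ → O → ℂ) (η κ R T Y : ℝ) (a : O) : ℂ :=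
  if T ≤ Y / R then ((Real.log Y / Real.log (Y / R) : ℝ) : ℂ) *
    cut ((Y / R) ^ η) ((Y / R) ^ (1 / 2 - κ)) ((Y / R) ^ (1 / 2 + κ)) (f (Y / R)) a else 0

variable {f : ℝ → O → ℂ} {η κ κ₀ e R T Y z : ℝ}

theorem cut_resc (hT : T ≤ Y / R) (hz : z ≤ (Y / R) ^ η) (y₁ y₂ : ℝ) :
    cut z y₁ y₂ (resc f η κ R T Y) = fun a => ((Real.log Y / Real.log (Y / R) : ℝ) : ℂ) *
      cut ((Y / R) ^ η) (max y₁ ((Y / R) ^ (1 / 2 - κ))) (min y₂ ((Y / R) ^ (1 / 2 + κ)))
        (f (Y / R)) a := by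
  funext a
  by_cases h : Primary a ∧ Squarefree a ∧ Rough ((Y / R) ^ η) a ∧
      max y₁ ((Y / R) ^ (1 / 2 - κ)) < (N a : ℝ) ∧ (N a : ℝ) ≤ min y₂ ((Y / R) ^ (1 / 2 + κ))
  · rw [cut_of h]
    rw [max_lt_iff, le_min_iff] at h
    rw [cut_of ⟨h.1, h.2.1, h.2.2.1.mono hz, h.2.2.2.1.1, h.2.2.2.2.1⟩, resc, if_pos hT,
      cut_of ⟨h.1, h.2.1, h.2.2.1, h.2.2.2.1.2, h.2.2.2.2.2⟩]
  · rw [cut_not h, mul_zero]
    by_contra h1
    have h2 := cut_ne h1
    rw [cut_of h2, resc, if_pos hT] at h1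
    have h3 := cut_ne (right_ne_zero_of_mul h1)
    exact h ⟨h2.1, h2.2.1, h3.2.2.1, max_lt h2.2.2.2.1 h3.2.2.2.1, le_min h2.2.2.2.2 h3.2.2.2.2⟩

theorem cut_resc_zero (hT : ¬ T ≤ Y / R) (y₁ y₂ : ℝ) :
    cut z y₁ y₂ (resc f η κ R T Y) = fun _ => 0 := by
  funext a
  rw [cut, resc, if_neg hT, ite_self]

/-- the centre for `tw r` -/
theorem cen_tw (hr : Primary r) (hη : 0 < η) (hη1 : η ≤ 1) (hκ₀ : 0 < κ₀) (hκ1 : κ₀ ≤ 1)
    (he : 0 < e) (he1 : e ≤ 1) (hNC : NCcen f η κ₀ e) (hcls : Hcls f η) :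
    ∃ κ₂ : ℝ, 0 < κ₂ ∧ ∀ κ : ℝ, 0 < κ → κ ≤ κ₂ → ∀ A : ℕ, ∃ C : ℝ, 0 ≤ C ∧ ∀ X : ℝ, 3 ≤ X →
      ∀ β : O → ℂ, (∀ b, ‖β b‖ ≤ 1) → (∀ b, β b ≠ 0 → Primary b ∧ Squarefree b) → ∀ x : ℝ, x ≤ X →
      ‖Bil (tw r) (cut (X ^ η) (X ^ (1 / 2 - κ)) (X ^ (1 / 2 + κ)) (f X)) β x‖ ≤
        C * X ^ (5 / 6 : ℝ) / Real.log X ^ A := by
  have hR := hr.one_le_N'
  set R : ℝ := (N r : ℝ) with hRd
  have hR0 : 0 < R := by linarith
  have hκ₁ : 0 < min (κ₀ / 2) (e / 2 / 100) / 100 := by positivity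
  refine ⟨min (min (κ₀ / 2) (e / 2 / 100) / 100 / 4) (min (e / 32) (1 / 200)), by positivity,
    fun κ hκ hκ2 A => ?_⟩
  have k1 := hκ2.trans (min_le_left _ _)
  have k2 := hκ2.trans ((min_le_right _ _).trans (min_le_left _ _))
  have k3 := hκ2.trans ((min_le_right _ _).trans (min_le_right _ _))
  obtain ⟨c, hc, c1, c2, c3, c4⟩ : ∃ c : ℝ, 0 < c ∧ c ≤ η / 2 ∧ c ≤ e / 2 ∧ c ≤ κ₀ / 2 ∧ c ≤ κ :=
    ⟨min (min (η / 2) (e / 2)) (min (κ₀ / 2) κ), by positivity,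
      (min_le_left _ _).trans (min_le_left _ _), (min_le_left _ _).trans (min_le_right _ _),
      (min_le_right _ _).trans (min_le_left _ _), (min_le_right _ _).trans (min_le_right _ _)⟩
  set T : ℝ := max 3 (R ^ (1 / c)) with hT
  have hsc : ∀ Y : ℝ, T ≤ Y / R → 3 ≤ Y / R ∧ Y / R ≤ Y ∧
      ∀ s t : ℝ, s ≤ 1 → c + s ≤ t → Y ^ s ≤ (Y / R) ^ t := by
    intro Y h
    have h1 : 3 ≤ Y / R := (le_max_left _ _).trans h
    have h2 : Y = R * (Y / R) := (mul_div_cancel₀ _ hR0.ne').symm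
    refine ⟨h1, by nlinarith, fun s t hs hst => ?_⟩
    have := scale_le hR (show 1 ≤ Y / R by linarith)
      (le_rpow_of hR hc ((le_max_right _ _).trans h)) hs hst
    rwa [← h2] at this
  have hcls' : Hcls (resc f η κ R T) (η / 2) := by
    intro Y hY y₁ y₂ _
    have hL := one_le_log hY
    by_cases h : T ≤ Y / R
    · obtain ⟨h1, h2, h3⟩ := hsc Y h
      have h4 := one_le_log h1
      rw [cut_resc h (h3 _ _ (by linarith) (by linarith))]
      refine (classG_smul (hcls _ h1 _ _ ((min_le_right _ _).trans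
        (pow_le_self (by linarith) (by linarith)))) (by positivity)).mono h2 (le_of_eq ?_)
      field_simp
    · rw [cut_resc_zero h]
      exact ⟨fun a ha => absurd rfl ha, fun a => by rw [norm_zero]; linarith,
        fun m _ => ⟨0, fun n => by simp; linarith, fun _ _ _ _ => rfl⟩⟩
  have hNC' : NCcen (resc f η κ R T) (η / 2) (κ₀ / 2) (e / 2) := by
    obtain ⟨C, hC, H⟩ := hNC
    refine ⟨C, hC, ?_⟩
    intro Y hY i l h1 h2 h3 y₁ y₂ σ t hσ S H' Q0 J0 sw hH1 hH2 hQ0 hJ0 hsw hSW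
    have h2i : (1 : ℝ) ≤ 2 ^ i := one_le_pow₀ (by norm_num)
    have hY1 : 1 ≤ 2 * ((2 : ℝ) ^ i - 1 / 2) := by linarith
    have hl := Real.log_nonneg hY1
    by_cases h : T ≤ Y / R
    · obtain ⟨a1, a2, a3⟩ := hsc Y h
      have a4 := one_le_log a1
      have a5 := one_le_log hY
      have E : ∀ s, gam (alc (resc f η κ R T) (η / 2) Y y₁ y₂ i) l ((2 : ℝ) ^ i - 1 / 2)
          (16 * Real.log Y) σ t s = gam (alc f η (Y / R) (max y₁ ((Y / R) ^ (1 / 2 - κ)))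
            (min y₂ ((Y / R) ^ (1 / 2 + κ))) i) l ((2 : ℝ) ^ i - 1 / 2)
            (16 * Real.log (Y / R)) σ t s := by
        intro s
        funext a
        have b1 : ((Real.log Y : ℝ) : ℂ) ≠ 0 := by exact_mod_cast (by linarith : Real.log Y ≠ 0)
        have b2 : ((Real.log (Y / R) : ℝ) : ℂ) ≠ 0 := by
          exact_mod_cast (by linarith : Real.log (Y / R) ≠ 0)
        simp only [gam, twc, DN.blk, alc, cut_resc h (a3 (η / 2) η (by linarith) (by linarith))]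
        split_ifs
        · push_cast
          field_simp
        · simp
        · simp
      simp only [E] at hSW ⊢
      refine (H (Y / R) a1 i l ?_ (h2.trans (a3 _ _ (by linarith) (by linarith)))
        (h3.trans (mul_le_mul_of_nonneg_right (a3 _ _ (by linarith) (by linarith))
          (by positivity))) _ _ σ t hσ S H' Q0 J0 sw hH1
        (hH2.trans (Real.rpow_le_rpow_of_exponent_le hY1 (by linarith))) hQ0 hJ0 hsw hSW).trans ?_
      · exact ((Real.rpow_le_rpow_of_exponent_le (by linarith) (by linarith)).trans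
          (Real.rpow_le_rpow (by linarith) a2 (by linarith))).trans h1
      · gcongr
        linarith
    · simp only [gam, twc, DN.blk, alc, NCQ, cut_resc_zero h, ite_self, zero_mul, mul_zero,
        sum_const_zero, norm_zero, ne_eq, OfNat.ofNat_ne_zero, not_false_eq_true, zero_pow]
      positivity
  obtain ⟨C, hC, H⟩ := bil_cen (κ := 2 * κ) FINE.fineHyp hbsq hκ₁ (by linarith) (by linarith)
    (cenDN_of dispStmt (by linarith) (by linarith) (by linarith) hNC' hcls') (by linarith)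
    (by linarith) (by linarith) (by linarith) (Cf := 4) (by norm_num) 1
    (fun Y hY a => by
      rw [pow_one]
      exact (hcls' Y hY _ _ (pow_le_self (by linarith) (by linarith))).bound a) A
  refine ⟨C * R + 512 * T ^ (A + 4), by positivity, fun X hX β hβ hβs x hx => ?_⟩
  have key := bil_le hr hC (X₁ := T) (by positivity) A hX le_rfl hx
    (α := cut (X ^ η) (X ^ (1 / 2 - κ)) (X ^ (1 / 2 + κ)) (f X)) (fun a =>
      ((hcls X hX _ _ (pow_le_self (by linarith) (by linarith))).bound a).trans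
        (by linarith [Real.log_le_self (show 0 ≤ X by linarith)])) hβ fun h => ?_
  · rwa [mul_one] at key
  have e1 : R * X / R = X := mul_div_cancel_left₀ _ hR0.ne'
  obtain ⟨a1, a2, a3⟩ := hsc (R * X) (by rwa [e1])
  have h1 := H (R * X) (by linarith) _ (norm_lift_le (r := r) hβ) (lift_supp hr hβs) (R * x)
    (by gcongr)
  rw [cut_resc (by rwa [e1]) (a3 _ _ (by linarith) (by linarith)),
    max_eq_right (a3 _ _ (by linarith) (by linarith)), min_eq_right, Bil_smul_left, e1,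
    norm_mul] at h1
  · rw [mul_one]
    refine le_trans (le_mul_of_one_le_left (norm_nonneg _) ?_) h1
    have h2 := one_le_log hX
    rw [e1] at a2
    have h3 := Real.log_le_log (by linarith) a2
    rw [Complex.norm_real, Real.norm_of_nonneg (div_nonneg (by linarith) (by linarith)),
      one_le_div (by linarith)]
    exact h3
  · exact (Real.rpow_le_rpow (by linarith) a2 (by linarith)).trans
      (Real.rpow_le_rpow_of_exponent_le (by linarith) (by linarith))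

open Filter Topology in
/-- **The sieve theorem for `tw r`.** -/
theorem tw_tendsto (hr : Primary r) : Tendsto (fun X : ℝ =>
    ‖∑ p ∈ PP X, tw r p‖ / (X ^ (5 / 6 : ℝ) / Real.log X)) atTop (𝓝 0) := by
  have hη : (0 : ℝ) < 1 / 100 := by norm_num
  obtain ⟨k₁, h1, e₁, h2, h3⟩ := LVC.tiic_nccen_lamb hη (by norm_num)
  obtain ⟨k₂, h4, e₂, h5, h6⟩ := LVC.tiic_nccen_cq hη
  obtain ⟨κ₁, h7, H1⟩ := cen_tw hr hη (by norm_num) (lt_min h1 one_pos) (min_le_right _ _)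
    (lt_min h2 one_pos) (min_le_right _ _) (h3 _ _ (lt_min h1 one_pos) (min_le_left _ _)
      (lt_min h2 one_pos) (min_le_left _ _)) (hcls_lamb _)
  obtain ⟨κ₂, h8, H2⟩ := cen_tw hr hη (by norm_num) (lt_min h4 one_pos) (min_le_right _ _)
    (lt_min h5 one_pos) (min_le_right _ _) (h6 _ _ (lt_min h4 one_pos) (min_le_left _ _)
      (lt_min h5 one_pos) (min_le_left _ _)) (hcls_cq _)
  obtain ⟨κ, k0, k1, k2, k3⟩ : ∃ κ : ℝ, 0 < κ ∧ κ ≤ κ₁ ∧ κ ≤ κ₂ ∧ κ ≤ 1 / 100 :=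
    ⟨min (min κ₁ κ₂) (1 / 100), by positivity, (min_le_left _ _).trans (min_le_left _ _),
      (min_le_left _ _).trans (min_le_right _ _), min_le_right _ _⟩
  obtain ⟨θ, a1, a2, a3⟩ := autMain
  have T2 : SV.TIIGen (tw r) (1 / 4000) κ := tii_tw hr (by norm_num) (by norm_num) (by linarith)
    (tiix_of_dn (by norm_num) k0 k0 le_rfl (by linarith) (dnGoal dispStmt κ k0 (by linarith)) hbsq)
  refine primes_tendsto (d := 1 / 4000) (sqSupp_tw hr) norm_tw_le (by norm_num) k0 hη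
    (by norm_num) (by linarith)
    (SV.tr_of (by norm_num) (by norm_num) (by norm_num) hη k0.le (by linarith) norm_tw_le
      (fun c hc => by_contra fun h => hc (sqSupp_tw hr c h).2) (t1s_tw hr (t1s_wf a1 a2.1 a3)) T2)
    (TIIH.of_TIIGen T2 _) (fun A => ?_) (fun A => ?_)
    (EdgeH.of (SV.edge_of (δ := 1 / 6) (by norm_num) (by norm_num) hη (by norm_num) (by norm_num)
      norm_tw_le (dn_tw hr (by norm_num) (by norm_num)))) (roughCount hη) densZero
  · obtain ⟨C, hC, h⟩ := H1 κ k0 k1 A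
    exact ⟨C, hC, fun X hX β b1 b2 x _ hx =>
      h X hX β b1 (fun b hb => ⟨(b2 b hb).1, (b2 b hb).2.1⟩) x hx⟩
  · obtain ⟨C, hC, h⟩ := H2 κ k0 k2 A
    exact ⟨C, hC, fun X hX β b1 b2 x _ hx =>
      h X hX β b1 (fun b hb => ⟨(b2 b hb).1, (b2 b hb).2.1⟩) x hx⟩

end Vale.Agent.N006
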