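import Vale.Agent.P006.Main.Q1Final

/-!
P006, twisted first moment, part 1: the function `c ↦ wf (r c)`, Type I and interior Type II.
-/

namespace Vale.Agent.N006

open Finset Filter Topology Vale.Agent.P006 Vale.Agent.P006.VR
open scoped Classical

variable {r : O}

/-- `wf` along the multiples of `r` -/
noncomputable def tw (r c : O) : ℂ := wf (r * c)

/-- coefficients moved to the multiples of `r` -/
noncomputable def lift (r : O) (β : O → ℂ) (b : O) : ℂ :=
  if r ∣ b ∧ Squarefree b then β (b / r) else 0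

theorem sqSupp_tw (hr : Primary r) : SqSupp (tw r) := fun c hc => by
  have h := sqSupp_wf _ hc
  exact ⟨hr.of_mul h.1, h.2.squarefree_of_dvd (dvd_mul_left _ _)⟩

theorem norm_tw_le (c : O) : ‖tw r c‖ ≤ 2 := norm_wf_le_two _

theorem norm_lift_le {β : O → ℂ} (h : ∀ b, ‖β b‖ ≤ 1) (b : O) : ‖lift r β b‖ ≤ 1 := by
  rw [lift]
  split_ifs
  · exact h _
  · simp

theorem lift_supp (hr : Primary r) {β : O → ℂ} (h : ∀ b, β b ≠ 0 → Primary b ∧ Squarefree b)
    (b : O) (hb : lift r β b ≠ 0) : Primary b ∧ Squarefree b := by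
  rw [lift] at hb
  split_ifs at hb with h1
  · exact ⟨VR.mul_div_of_dvd hr.ne_zero h1.1 ▸ hr.mul (h _ hb).1, h1.2⟩
  · exact absurd rfl hb

theorem mem_PB_mul (hr : Primary r) {y : ℝ} {b : O} : r * b ∈ PB (N r * y) ↔ b ∈ PB y := by
  have h0 : (0 : ℝ) < N r := zero_lt_one.trans_le hr.one_le_N'
  rw [mem_PB, mem_PB, N_mul, Nat.cast_mul, mul_le_mul_iff_right₀ h0]
  exact and_congr_left' ⟨hr.of_mul, hr.mul⟩

theorem sum_reindex (hr : Primary r) (y : ℝ) (F : O → ℂ) (hF : ∀ b, ¬ r ∣ b → F b = 0) :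
    ∑ b ∈ PB (N r * y), F b = ∑ b ∈ PB y, F (r * b) := by
  symm
  refine sum_of_injOn (fun b => r * b) (fun _ _ _ _ h => mul_left_cancel₀ hr.ne_zero h)
    (fun b hb => (mem_PB_mul hr).2 hb) (fun b hb h => hF b ?_) fun _ _ => rfl
  rintro ⟨c, rfl⟩
  exact h ⟨c, (mem_PB_mul hr).1 hb, rfl⟩

theorem sum_le_mul (hr : r ≠ 0) {S T : Finset O} {f g : O → ℝ} (h1 : ∀ b ∈ S, f b ≠ 0 → r * b ∈ T)
    (h2 : ∀ b ∈ S, f b ≤ g (r * b)) (hg : ∀ b, 0 ≤ g b) : ∑ b ∈ S, f b ≤ ∑ b ∈ T, g b := by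
  rw [← sum_filter_ne_zero]
  refine (sum_le_sum fun b hb => h2 b (mem_filter.1 hb).1).trans ?_
  rw [← sum_image (g := fun b => r * b) (fun _ _ _ _ h => mul_left_cancel₀ hr h)]
  refine sum_le_sum_of_subset_of_nonneg (image_subset_iff.2 fun b hb => ?_) fun _ _ _ => hg _
  exact h1 b (mem_filter.1 hb).1 (mem_filter.1 hb).2

theorem Bil_tw (hr : Primary r) (α β : O → ℂ) (x : ℝ) :
    Bil (tw r) α β x = Bil wf α (lift r β) (N r * x) := by
  have h1 := hr.one_le_N'
  have key : ∀ a : O, ∑ b ∈ PB (N r * x / N a), lift r β b * wf (a * b) =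
      ∑ b ∈ PB (x / N a), β b * tw r (a * b) := by
    intro a
    rw [mul_div_assoc, sum_reindex hr _ _ fun b hb => by rw [lift, if_neg fun h => hb h.1, zero_mul]]
    refine sum_congr rfl fun b _ => ?_
    rw [tw, mul_left_comm, lift]
    by_cases h : Squarefree (r * b)
    · rw [if_pos ⟨dvd_mul_right _ _, h⟩, mul_div_left hr.ne_zero]
    · rw [wf_of_not_squarefree _ fun h2 => h (h2.squarefree_of_dvd
        ⟨a, by ring⟩), mul_zero, mul_zero]
  simp only [Bil, key]
  refine sum_subset (fun a ha => ?_) fun a ha h => ?_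
  · rw [mem_PB] at ha ⊢
    exact ⟨ha.1, ha.2.trans (le_mul_of_one_le_left ((Nat.cast_nonneg _).trans ha.2) h1)⟩
  · rw [mem_PB] at ha h
    rw [PB_eq_empty, sum_empty, mul_zero]
    rw [div_lt_one (zero_lt_one.trans_le ha.1.one_le_N')]
    exact not_le.1 fun h2 => h ⟨ha.1, h2⟩

theorem le_rpow_of {R c X : ℝ} (hR : 1 ≤ R) (hc : 0 < c) (h : R ^ (1 / c) ≤ X) : R ≤ X ^ c := by
  calc R = (R ^ (1 / c)) ^ c := by
        rw [← Real.rpow_mul (by linarith), one_div_mul_cancel hc.ne', Real.rpow_one]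
    _ ≤ _ := Real.rpow_le_rpow (by positivity) h hc.le

theorem scale_le {R X c s t : ℝ} (hR : 1 ≤ R) (hX : 1 ≤ X) (h : R ≤ X ^ c) (hs : s ≤ 1)
    (hst : c + s ≤ t) : (R * X) ^ s ≤ X ^ t := by
  have h1 : R ^ s ≤ R := by simpa using Real.rpow_le_rpow_of_exponent_le hR hs
  calc (R * X) ^ s = R ^ s * X ^ s := Real.mul_rpow (by linarith) (by linarith)
    _ ≤ X ^ c * X ^ s := mul_le_mul_of_nonneg_right (h1.trans h) (by positivity)
    _ = X ^ (c + s) := (Real.rpow_add (by linarith) _ _).symm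
    _ ≤ _ := Real.rpow_le_rpow_of_exponent_le hX hst

theorem mul_rpow_le {R X s : ℝ} (hR : 1 ≤ R) (hX : 0 ≤ X) (hs : s ≤ 1) :
    (R * X) ^ s ≤ R * X ^ s := by
  have h1 : R ^ s ≤ R := by simpa using Real.rpow_le_rpow_of_exponent_le hR hs
  rw [Real.mul_rpow (by linarith) hX]
  exact mul_le_mul_of_nonneg_right h1 (by positivity)

theorem bil_le (hr : Primary r) {C X₁ : ℝ} (hC : 0 ≤ C) (h₁ : 0 ≤ X₁) (A : ℕ) {X G x : ℝ}
    (hX : 3 ≤ X) (hG : 1 ≤ G) (hx : x ≤ X) {α β : O → ℂ} (hα : ∀ a, ‖α a‖ ≤ G * (4 * X))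
    (hβ : ∀ b, ‖β b‖ ≤ 1) (h : X₁ ≤ X → ‖Bil wf α (lift r β) (N r * x)‖ ≤
      C * G * (N r * X) ^ (5 / 6 : ℝ) / Real.log (N r * X) ^ A) :
    ‖Bil (tw r) α β x‖ ≤
      (C * N r + 512 * X₁ ^ (A + 4)) * G * X ^ (5 / 6 : ℝ) / Real.log X ^ A := by
  have hR := hr.one_le_N'
  have hL := DN.one_le_log hX
  have hG0 : 0 < G := by linarith
  rcases le_or_gt X₁ X with h1 | h1
  · rw [Bil_tw hr]
    refine (h h1).trans ?_
    have h2 := mul_rpow_le (s := 5 / 6) hR (show 0 ≤ X by linarith) (by norm_num)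
    calc _ ≤ C * G * (N r * X ^ (5 / 6 : ℝ)) / Real.log X ^ A := by
          gcongr
          nlinarith
      _ = C * N r * G * X ^ (5 / 6 : ℝ) / Real.log X ^ A := by ring
      _ ≤ _ := by
          gcongr
          exact le_add_of_nonneg_right (by positivity)
  · have e : α = fun a => (G : ℂ) * (α a / G) := by
      funext a
      rw [mul_div_cancel₀]
      exact_mod_cast hG0.ne'
    have h2 := SV.Bil_trivial (w := tw r) (α := fun a => α a / G) (β := β) (M := 4 * X)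
      (show 1 ≤ X by linarith) hx (by linarith) norm_tw_le
      (fun a => by
        rw [norm_div, Complex.norm_real, Real.norm_of_nonneg hG0.le, div_le_iff₀' hG0]
        exact hα a) fun b => (hβ b).trans (by linarith)
    rw [e, Bil_smul_left, norm_mul, Complex.norm_real, Real.norm_of_nonneg hG0.le,
      le_div_iff₀ (by positivity)]
    have h3 : Real.log X ≤ X₁ := (Real.log_le_self (by linarith)).trans h1.le
    have h4 : 1 ≤ X ^ (5 / 6 : ℝ) := Real.one_le_rpow (by linarith) (by norm_num)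
    calc _ ≤ G * (32 * (4 * X₁) ^ 2 * X₁ ^ 2) * X₁ ^ A := by
          gcongr
          exact h2.trans (by gcongr)
      _ = (0 + 512 * X₁ ^ (A + 4)) * G * 1 := by ring
      _ ≤ _ := by
          gcongr
          positivity

/-- interior Type II -/
theorem tii_tw (hr : Primary r) {d κ : ℝ} (hd : 0 < d) (hd1 : d ≤ 1) (hκ : κ ≤ 1 / 2)
    (h : TIIX wf (d / 2) κ) : SV.TIIGen (tw r) d κ := by
  intro A
  obtain ⟨C, hC, h⟩ := h A
  have hR := hr.one_le_N'
  refine ⟨C * N r + 512 * ((N r : ℝ) ^ (1 / (d / 2))) ^ (A + 4), by positivity,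
    fun X hX G hG α β hα hs hβ hβs x _ hx => bil_le hr hC (by positivity) A hX hG hx
      (fun a => (hα.bound a).trans (by nlinarith)) hβ fun h1 => ?_⟩
  have h2 : X ≤ N r * X := by nlinarith
  refine h (N r * X) (by linarith) G hG α _ (hα.mono h2 le_rfl) (fun a ha => ⟨?_, ?_⟩)
    (norm_lift_le hβ) (lift_supp hr hβs) _ (by gcongr)
  · exact (scale_le hR (by linarith) (le_rpow_of hR (by linarith) h1) (by linarith)
      (by linarith)).trans_lt (hs a ha).1
  · exact (hs a ha).2.trans (Real.rpow_le_rpow (by linarith) h2 (by linarith))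

/-- sharp Type I -/
theorem t1s_tw (hr : Primary r) (h : SV.T1SHyp wf (1 / 1000)) : SV.T1SHyp (tw r) (1 / 2000) := by
  obtain ⟨C, hC, h⟩ := h
  have hR := hr.one_le_N'
  set X₁ : ℝ := (N r : ℝ) ^ (1 / (1 / 2000 : ℝ)) with hX₁
  refine ⟨C * N r + 32 * X₁ ^ 2, by positivity, fun X hX => ?_⟩
  have hP : 1 ≤ X ^ (5 / 6 - 1 / 2000 : ℝ) := Real.one_le_rpow hX (by norm_num)
  rcases le_or_gt X₁ X with h1 | h1
  · have h2 : X ≤ N r * X := by nlinarith
    refine le_trans (sum_le_mul hr.ne_zero (fun m hm _ => ?_) (fun m _ => le_of_eq ?_)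
      fun _ => norm_nonneg _) ((h (N r * X) (by linarith)).trans ?_)
    · refine PB_mono ?_ ((mem_PB_mul hr).2 hm)
      calc _ ≤ X ^ (1 / 2000 : ℝ) * X ^ (1 / 3 + 1 / 2000 : ℝ) :=
            mul_le_mul_of_nonneg_right (le_rpow_of hR (by norm_num) h1) (by positivity)
        _ = X ^ (1 / 3 + 1 / 1000 : ℝ) := by rw [← Real.rpow_add (by linarith)]; norm_num
        _ ≤ _ := Real.rpow_le_rpow (by linarith) h2 (by norm_num)
    · rw [sum_filter, sum_filter, sum_reindex hr _ _ fun b hb =>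
        if_neg fun h3 => hb ((dvd_mul_right _ _).trans h3)]
      simp only [mul_dvd_mul_iff_left hr.ne_zero, tw]
    · have h3 := mul_rpow_le (s := 5 / 6 - 1 / 1000) hR (show 0 ≤ X by linarith) (by norm_num)
      have h4 : X ^ (5 / 6 - 1 / 1000 : ℝ) ≤ X ^ (5 / 6 - 1 / 2000 : ℝ) :=
        Real.rpow_le_rpow_of_exponent_le hX (by norm_num)
      calc _ ≤ C * (N r * X ^ (5 / 6 - 1 / 2000 : ℝ)) := by
            gcongr
            exact h3.trans (by gcongr)
        _ = (C * N r + 0) * X ^ (5 / 6 - 1 / 2000 : ℝ) := by ring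
        _ ≤ _ := by
            gcongr
            positivity
  · have h2 : X ^ (1 / 3 + 1 / 2000 : ℝ) ≤ X := by
      simpa using Real.rpow_le_rpow_of_exponent_le hX (show 1 / 3 + 1 / 2000 ≤ (1 : ℝ) by norm_num)
    have h3 := card_PB_le (X := X) (by linarith)
    have h4 := card_PB_le (X := X ^ (1 / 3 + 1 / 2000 : ℝ)) (by positivity)
    calc _ ≤ ∑ m ∈ PB (X ^ (1 / 3 + 1 / 2000 : ℝ)), 4 * X * 2 := by
          refine sum_le_sum fun m _ => (norm_sum_le _ _).trans
            ((sum_le_card_nsmul _ _ 2 fun c _ => norm_tw_le c).trans ?_)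
          rw [nsmul_eq_mul]
          gcongr
          exact le_trans (by exact_mod_cast card_filter_le _ _) h3
      _ ≤ 4 * X₁ * (4 * X₁ * 2) := by
          rw [sum_const, nsmul_eq_mul]
          gcongr
          linarith
      _ = (0 + 32 * X₁ ^ 2) * 1 := by ring
      _ ≤ _ := by
          gcongr
          positivity

end Vale.Agent.N006
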